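import Mathlib

/-!
Littlewood polynomials: the fourth-moment (autocorrelation) obstruction to flatness (P110).
-/

namespace Vale.Agent.Lib.P110

open Finset Polynomial

/-- Discrete Parseval identity at the `L`-th roots of unity for sequences of length `n ≤ L`. -/
lemma discrete_parseval {L n : ℕ} (hn : n ≤ L) (a : ℕ → ℂ) {ω : ℂ}
    (hω : IsPrimitiveRoot ω L) (hL : 0 < L) :
    ∑ j ∈ range L, ((‖∑ s ∈ range n, a s * (ω ^ j) ^ s‖ ^ 2 : ℝ) : ℂ)
      = (L : ℂ) * ∑ s ∈ range n, ((‖a s‖ ^ 2 : ℝ) : ℂ) := by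
  have hω1 : ω ^ L = 1 := hω.pow_eq_one
  have hω0 : ω ≠ 0 := hω.ne_zero hL.ne'
  have hnorm : ‖ω‖ = 1 := hω.norm'_eq_one hL.ne'
  have hconj : (starRingEnd ℂ) ω = ω⁻¹ := by
    rw [Complex.inv_def, Complex.normSq_eq_norm_sq, hnorm]; simp
  have key : ∀ j : ℕ, ((‖∑ s ∈ range n, a s * (ω ^ j) ^ s‖ ^ 2 : ℝ) : ℂ)
      = ∑ s ∈ range n, ∑ t ∈ range n,
          a s * (starRingEnd ℂ) (a t) * (ω ^ s * (ω⁻¹) ^ t) ^ j := by
    intro j
    rw [← Complex.normSq_eq_norm_sq, ← Complex.mul_conj, map_sum, Finset.sum_mul_sum]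
    refine Finset.sum_congr rfl (fun s _ => Finset.sum_congr rfl (fun t _ => ?_))
    rw [map_mul, map_pow, map_pow, hconj]
    ring
  simp_rw [key]
  rw [Finset.sum_comm]
  have inner : ∀ s ∈ range n, ∑ j ∈ range L, ∑ t ∈ range n,
      a s * (starRingEnd ℂ) (a t) * (ω ^ s * (ω⁻¹) ^ t) ^ j
      = (L : ℂ) * ((‖a s‖ ^ 2 : ℝ) : ℂ) := by
    intro s hs
    rw [Finset.sum_comm]
    have hs' : s < n := Finset.mem_range.1 hs
    rw [Finset.sum_eq_single s]
    · have : ω ^ s * (ω⁻¹) ^ s = 1 := by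
        rw [← mul_pow, mul_inv_cancel₀ hω0, one_pow]
      simp only [this, one_pow, Finset.sum_const, Finset.card_range, nsmul_eq_mul]
      rw [← Complex.normSq_eq_norm_sq, ← Complex.mul_conj, mul_one]
    · intro t ht hts
      have ht' : t < n := Finset.mem_range.1 ht
      rw [← Finset.mul_sum]
      have hz1 : ω ^ s * (ω⁻¹) ^ t ≠ 1 := by
        intro h
        have h2 : ω ^ s = ω ^ t := by
          have h3 : ω ^ s * (ω⁻¹) ^ t * ω ^ t = 1 * ω ^ t := by rw [h]
          rw [mul_assoc, ← mul_pow, inv_mul_cancel₀ hω0, one_pow, mul_one, one_mul] at h3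
          exact h3
        exact hts (hω.pow_inj (lt_of_lt_of_le ht' hn) (lt_of_lt_of_le hs' hn) h2.symm)
      have hzL : (ω ^ s * (ω⁻¹) ^ t) ^ L = 1 := by
        rw [mul_pow, ← pow_mul, ← pow_mul, mul_comm s L, mul_comm t L, pow_mul, pow_mul, hω1,
          inv_pow, hω1]
        simp
      rw [geom_sum_eq hz1, hzL]
      simp
    · intro h; exact absurd hs h
  rw [Finset.sum_congr rfl inner, Finset.mul_sum]

lemma discrete_parseval_real {L n : ℕ} (hn : n ≤ L) (a : ℕ → ℂ) {ω : ℂ}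
    (hω : IsPrimitiveRoot ω L) (hL : 0 < L) :
    ∑ j ∈ range L, ‖∑ s ∈ range n, a s * (ω ^ j) ^ s‖ ^ 2
      = (L : ℝ) * ∑ s ∈ range n, ‖a s‖ ^ 2 := by
  have h := discrete_parseval hn a hω hL
  exact_mod_cast h

/-- The integer polynomial with coefficient sequence `e` of length `N`. -/
noncomputable def polyOf (N : ℕ) (e : ℕ → ℤ) : ℤ[X] := ∑ k ∈ range N, C (e k) * X ^ k

lemma coeff_polyOf (N : ℕ) (e : ℕ → ℤ) (i : ℕ) :
    (polyOf N e).coeff i = if i < N then e i else 0 := by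
  unfold polyOf
  rw [finsetSum_coeff]
  simp only [coeff_C_mul_X_pow]
  rw [Finset.sum_ite_eq]
  simp

lemma natDegree_polyOf_lt (N : ℕ) (hN : 0 < N) (e : ℕ → ℤ) : (polyOf N e).natDegree < N := by
  unfold polyOf
  have h : (∑ k ∈ range N, C (e k) * X ^ k : ℤ[X]).natDegree ≤ N - 1 := by
    apply natDegree_sum_le_of_forall_le
    intro k hk
    have hk' : k < N := Finset.mem_range.1 hk
    exact (natDegree_C_mul_X_pow_le (e k) k).trans (by omega)
  omega

lemma aeval_polyOf (N : ℕ) (e : ℕ → ℤ) (z : ℂ) :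
    aeval z (polyOf N e) = ∑ k ∈ range N, (e k : ℂ) * z ^ k := by
  unfold polyOf
  simp [map_sum]

/-- Modulo 2, a polynomial with odd coefficients is the geometric sum. -/
lemma map_polyOf_of_odd (N : ℕ) (e : ℕ → ℤ) (he : ∀ k < N, e k = 1 ∨ e k = -1) :
    (polyOf N e).map (Int.castRingHom (ZMod 2)) = ∑ k ∈ range N, (X : (ZMod 2)[X]) ^ k := by
  unfold polyOf
  rw [Polynomial.map_sum]
  refine Finset.sum_congr rfl (fun k hk => ?_)
  have hk' : k < N := Finset.mem_range.1 hk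
  rw [Polynomial.map_mul, Polynomial.map_pow, map_X, map_C]
  rcases he k hk' with h | h
  · rw [h]; simp
  · rw [h]
    have : ((Int.castRingHom (ZMod 2)) (-1) : ZMod 2) = 1 := by decide
    rw [this]; simp

/-- The reversed coefficient sequence. -/
def rev (N : ℕ) (e : ℕ → ℤ) : ℕ → ℤ := fun k => e (N - 1 - k)

lemma rev_pm (N : ℕ) (e : ℕ → ℤ) (he : ∀ k < N, e k = 1 ∨ e k = -1) :
    ∀ k < N, rev N e k = 1 ∨ rev N e k = -1 := by
  intro k hk
  exact he (N - 1 - k) (by omega)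

/-- The product of the polynomial with its reversal (autocorrelation polynomial). -/
noncomputable def autoPoly (N : ℕ) (e : ℕ → ℤ) : ℤ[X] := polyOf N e * polyOf N (rev N e)

lemma autoPoly_coeff_even_ne_zero (N : ℕ) (e : ℕ → ℤ) (he : ∀ k < N, e k = 1 ∨ e k = -1)
    (k : ℕ) (hk : k < N) : (autoPoly N e).coeff (2 * k) ≠ 0 := by
  intro h0
  have hmap : (autoPoly N e).map (Int.castRingHom (ZMod 2))
      = ∑ j ∈ range N, (X : (ZMod 2)[X]) ^ (2 * j) := by
    unfold autoPoly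
    rw [Polynomial.map_mul, map_polyOf_of_odd N e he,
      map_polyOf_of_odd N (rev N e) (rev_pm N e he), ← sq]
    have := sum_pow_char 2 (range N) (fun j => (X : (ZMod 2)[X]) ^ j)
    rw [this]
    refine Finset.sum_congr rfl (fun j _ => ?_)
    rw [← pow_mul, mul_comm]
  have hc : ((autoPoly N e).map (Int.castRingHom (ZMod 2))).coeff (2 * k) = 1 := by
    rw [hmap, finsetSum_coeff]
    simp only [coeff_X_pow]
    rw [Finset.sum_eq_single k]
    · simp
    · intro j _ hjk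
      have : 2 * k ≠ 2 * j := by omega
      simp [this]
    · intro hk'; exact absurd (Finset.mem_range.2 hk) hk'
  rw [coeff_map, h0] at hc
  simp at hc

lemma autoPoly_coeff_mid (N : ℕ) (hN : 0 < N) (e : ℕ → ℤ) (he : ∀ k < N, e k = 1 ∨ e k = -1) :
    (autoPoly N e).coeff (N - 1) = N := by
  unfold autoPoly
  rw [coeff_mul, Finset.Nat.sum_antidiagonal_eq_sum_range_succ
    (fun i j => (polyOf N e).coeff i * (polyOf N (rev N e)).coeff j)]
  have hN' : N - 1 + 1 = N := by omega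
  rw [Nat.succ_eq_add_one, hN']
  have : ∀ k ∈ range N, (polyOf N e).coeff k * (polyOf N (rev N e)).coeff (N - 1 - k) = 1 := by
    intro k hk
    have hk' : k < N := Finset.mem_range.1 hk
    rw [coeff_polyOf, coeff_polyOf, if_pos hk', if_pos (by omega)]
    unfold rev
    have : N - 1 - (N - 1 - k) = k := by omega
    rw [this]
    rcases he k hk' with h | h <;> rw [h] <;> norm_num
  rw [Finset.sum_congr rfl this]
  simp

lemma natDegree_autoPoly_lt (N : ℕ) (hN : 0 < N) (e : ℕ → ℤ) :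
    (autoPoly N e).natDegree < 2 * N - 1 := by
  unfold autoPoly
  have h1 := natDegree_polyOf_lt N hN e
  have h2 := natDegree_polyOf_lt N hN (rev N e)
  have h3 := natDegree_mul_le (p := polyOf N e) (q := polyOf N (rev N e))
  omega

/-- On the unit circle the reversed polynomial is `z^(N-1)` times the conjugate. -/
lemma aeval_rev (N : ℕ) (e : ℕ → ℤ) (z : ℂ) (hz : ‖z‖ = 1) :
    aeval z (polyOf N (rev N e)) = z ^ (N - 1) * (starRingEnd ℂ) (aeval z (polyOf N e)) := by
  have hz0 : z ≠ 0 := by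
    intro h; rw [h, norm_zero] at hz; exact zero_ne_one hz
  have hconj : (starRingEnd ℂ) z = z⁻¹ := by
    rw [Complex.inv_def, Complex.normSq_eq_norm_sq, hz]; simp
  rw [aeval_polyOf, aeval_polyOf, map_sum, Finset.mul_sum]
  rw [← Finset.sum_range_reflect]
  refine Finset.sum_congr rfl (fun k hk => ?_)
  have hk' : k < N := Finset.mem_range.1 hk
  unfold rev
  have e1 : N - 1 - (N - 1 - k) = k := by omega
  rw [e1, map_mul, map_pow, hconj, map_intCast]
  have e2 : z ^ (N - 1) = z ^ (N - 1 - k) * z ^ k := by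
    rw [← pow_add]; congr 1; omega
  rw [e2]
  have e3 : z ^ k * z⁻¹ ^ k = 1 := by rw [← mul_pow, mul_inv_cancel₀ hz0, one_pow]
  calc (e k : ℂ) * z ^ (N - 1 - k)
      = (e k : ℂ) * z ^ (N - 1 - k) * (z ^ k * z⁻¹ ^ k) := by rw [e3, mul_one]
    _ = z ^ (N - 1 - k) * z ^ k * ((e k : ℂ) * z⁻¹ ^ k) := by ring

lemma norm_aeval_autoPoly (N : ℕ) (e : ℕ → ℤ) (z : ℂ) (hz : ‖z‖ = 1) :
    ‖aeval z (autoPoly N e)‖ = ‖aeval z (polyOf N e)‖ ^ 2 := by
  unfold autoPoly
  rw [map_mul, aeval_rev N e z hz, norm_mul, norm_mul, norm_pow, hz, one_pow, one_mul,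
    RCLike.norm_conj, sq]

lemma aeval_autoPoly_eq_sum (N : ℕ) (hN : 0 < N) (e : ℕ → ℤ) (z : ℂ) :
    aeval z (autoPoly N e)
      = ∑ s ∈ range (2 * N - 1), (((autoPoly N e).coeff s : ℤ) : ℂ) * z ^ s := by
  rw [aeval_eq_sum_range' (natDegree_autoPoly_lt N hN e)]
  refine Finset.sum_congr rfl (fun s _ => ?_)
  simp [zsmul_eq_mul]

/-- Counting the even numbers below `2n+1`. -/
lemma sum_even_indicator (n : ℕ) :
    ∑ s ∈ range (2 * n + 1), (if Even s then (1 : ℤ) else 0) = n + 1 := by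
  induction n with
  | zero => rw [show 2 * 0 + 1 = 1 from rfl, Finset.sum_range_one]; simp
  | succ n ih =>
    have : 2 * (n + 1) + 1 = (2 * n + 1) + 1 + 1 := by ring
    rw [this, Finset.sum_range_succ, Finset.sum_range_succ, ih]
    have h1 : ¬ Even (2 * n + 1) := by
      rw [Nat.not_even_iff_odd]; exact ⟨n, rfl⟩
    have h2 : Even (2 * n + 1 + 1) := ⟨n + 1, by ring⟩
    rw [if_neg h1, if_pos h2]
    push_cast; ring

/-- Lower bound for the sum of squares of the autocorrelation coefficients. -/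
lemma sum_sq_autoPoly_ge (N : ℕ) (hN : 0 < N) (e : ℕ → ℤ) (he : ∀ k < N, e k = 1 ∨ e k = -1) :
    (N : ℤ) ^ 2 + N - 1 ≤ ∑ s ∈ range (2 * N - 1), ((autoPoly N e).coeff s) ^ 2 := by
  obtain ⟨n, rfl⟩ : ∃ n, N = n + 1 := ⟨N - 1, by omega⟩
  have hr : 2 * (n + 1) - 1 = 2 * n + 1 := by omega
  rw [hr]
  set c := (autoPoly (n + 1) e).coeff with hc
  have hterm : ∀ s ∈ range (2 * n + 1),
      (if Even s then (1 : ℤ) else 0) + (if s = n then ((n : ℤ) + 1) ^ 2 - 1 else 0)
        ≤ c s ^ 2 := by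
    intro s hs
    have hs' : s < 2 * n + 1 := Finset.mem_range.1 hs
    by_cases hsn : s = n
    · have hmid : c n = (n : ℤ) + 1 := by
        have := autoPoly_coeff_mid (n + 1) (by omega) e he
        simp only [Nat.add_sub_cancel] at this
        rw [hc, this]; push_cast; ring
      rw [hsn, if_pos rfl, hmid]
      split_ifs <;> nlinarith
    · rw [if_neg hsn, add_zero]
      by_cases hev : Even s
      · rw [if_pos hev]
        obtain ⟨k, hk⟩ := hev
        have hk2 : s = 2 * k := by omega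
        have hne : c s ≠ 0 := by
          rw [hk2]; exact autoPoly_coeff_even_ne_zero (n + 1) e he k (by omega)
        have : 0 < c s ^ 2 := by positivity
        omega
      · rw [if_neg hev]; positivity
  have hsum := Finset.sum_le_sum hterm
  rw [Finset.sum_add_distrib, sum_even_indicator, Finset.sum_ite_eq'] at hsum
  have hmem : n ∈ range (2 * n + 1) := Finset.mem_range.2 (by omega)
  rw [if_pos hmem] at hsum
  push_cast
  linarith

/-- Core inequality: if `m ≤ |P|² ≤ M` on the unit circle then `(M - N)(N - m) ≥ N - 1`. -/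
lemma core (N : ℕ) (hN : 0 < N) (e : ℕ → ℤ) (he : ∀ k < N, e k = 1 ∨ e k = -1) (m M : ℝ)
    (h : ∀ z : ℂ, ‖z‖ = 1 → m ≤ ‖∑ k ∈ range N, (e k : ℂ) * z ^ k‖ ^ 2 ∧
      ‖∑ k ∈ range N, (e k : ℂ) * z ^ k‖ ^ 2 ≤ M) :
    (N : ℝ) - 1 ≤ (M - N) * (N - m) := by
  set L := 2 * N with hLdef
  have hL : 0 < L := by omega
  set ω : ℂ := Complex.exp (2 * Real.pi * Complex.I / L) with hωdef
  have hω : IsPrimitiveRoot ω L := Complex.isPrimitiveRoot_exp L hL.ne'
  have hnorm : ∀ j : ℕ, ‖ω ^ j‖ = 1 := by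
    intro j; rw [norm_pow, hω.norm'_eq_one hL.ne', one_pow]
  set a : ℕ → ℝ := fun j => ‖∑ k ∈ range N, (e k : ℂ) * (ω ^ j) ^ k‖ ^ 2 with ha
  -- second moment
  have S2 : ∑ j ∈ range L, a j = (L : ℝ) * N := by
    have h2 := discrete_parseval_real (n := N) (L := L) (by omega) (fun s => (e s : ℂ)) hω hL
    rw [ha]
    simp only
    rw [h2]
    congr 1
    have : ∀ s ∈ range N, ‖((e s : ℤ) : ℂ)‖ ^ 2 = (1 : ℝ) := by
      intro s hs
      rcases he s (Finset.mem_range.1 hs) with h1 | h1 <;> rw [h1] <;> simp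
    rw [Finset.sum_congr rfl this]
    simp
  -- fourth moment
  have S4 : (L : ℝ) * ((N : ℝ) ^ 2 + N - 1) ≤ ∑ j ∈ range L, (a j) ^ 2 := by
    have h4 := discrete_parseval_real (n := 2 * N - 1) (L := L) (by omega)
      (fun s => (((autoPoly N e).coeff s : ℤ) : ℂ)) hω hL
    have haj : ∀ j ∈ range L, (a j) ^ 2
        = ‖∑ s ∈ range (2 * N - 1), (((autoPoly N e).coeff s : ℤ) : ℂ) * (ω ^ j) ^ s‖ ^ 2 := by
      intro j _
      rw [← aeval_autoPoly_eq_sum N hN e (ω ^ j), norm_aeval_autoPoly N e (ω ^ j) (hnorm j),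
        aeval_polyOf]
    rw [Finset.sum_congr rfl haj, h4]
    apply mul_le_mul_of_nonneg_left _ (by positivity)
    have hge := sum_sq_autoPoly_ge N hN e he
    have hcast : ∑ s ∈ range (2 * N - 1), ‖(((autoPoly N e).coeff s : ℤ) : ℂ)‖ ^ 2
        = ((∑ s ∈ range (2 * N - 1), ((autoPoly N e).coeff s) ^ 2 : ℤ) : ℝ) := by
      push_cast
      refine Finset.sum_congr rfl (fun s _ => ?_)
      rw [Complex.norm_intCast, sq_abs]
    rw [hcast]
    exact_mod_cast hge
  -- combine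
  have hpos : ∀ j ∈ range L, 0 ≤ (M - a j) * (a j - m) := by
    intro j _
    have := h (ω ^ j) (hnorm j)
    exact mul_nonneg (by linarith [this.2]) (by linarith [this.1])
  have hsum : 0 ≤ ∑ j ∈ range L, (M - a j) * (a j - m) := Finset.sum_nonneg hpos
  have hexp : ∑ j ∈ range L, (M - a j) * (a j - m)
      = (M + m) * ∑ j ∈ range L, a j - ∑ j ∈ range L, (a j) ^ 2 - L * (M * m) := by
    have : ∀ j ∈ range L, (M - a j) * (a j - m) = (M + m) * a j - (a j) ^ 2 - M * m := by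
      intro j _; ring
    rw [Finset.sum_congr rfl this, Finset.sum_sub_distrib, Finset.sum_sub_distrib,
      ← Finset.mul_sum]
    simp
  rw [hexp, S2] at hsum
  have hLpos : (0 : ℝ) < L := by exact_mod_cast hL
  have hfin : 0 ≤ (L : ℝ) * ((M + m) * N - ((N : ℝ) ^ 2 + N - 1) - M * m) := by nlinarith
  have hfin2 : 0 ≤ (M + m) * N - ((N : ℝ) ^ 2 + N - 1) - M * m := by
    by_contra hcon
    have hneg : (M + m) * N - ((N : ℝ) ^ 2 + N - 1) - M * m < 0 := not_le.1 hcon
    have := mul_neg_of_pos_of_neg hLpos hneg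
    linarith
  nlinarith

end Vale.Agent.Lib.P110
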